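import Vale.Agent.P254.Bdl.B2

/-! Dual pairs of convex bodies, translations and projective maps. -/

set_option linter.all false

open MeasureTheory Set Matrix Filter Topology

namespace Vale.Agent.N248

open Vale.Agent.P254

variable {n : ℕ} {K T : Set (Fin n → ℝ)}

/-- The polar set. -/
def pol (K : Set (Fin n → ℝ)) : Set (Fin n → ℝ) := {v | ∀ u ∈ K, v ⬝ᵥ u ≤ 1}

/-- Volume as a real number. -/
noncomputable def vol (K : Set (Fin n → ℝ)) : ℝ := (volume K).toReal

/-- A pair of mutually polar compact sets. -/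
structure DP (K T : Set (Fin n → ℝ)) : Prop where
  cK : IsCompact K
  cT : IsCompact T
  eK : K = pol T
  eT : T = pol K

/-- The linear form `s - η u` is positive on `K`. -/
def Dom (K : Set (Fin n → ℝ)) (η : Fin n → ℝ) (s : ℝ) : Prop := ∀ u ∈ K, η ⬝ᵥ u < s

/-- The volume of the section of the cone over `K`. -/
noncomputable def F (K : Set (Fin n → ℝ)) (η : Fin n → ℝ) (s : ℝ) : ℝ :=
  ∫ u in K, ((s - η ⬝ᵥ u) ^ (n + 1))⁻¹

/-- The projective map. -/
noncomputable def phi (p v : Fin n → ℝ) : Fin n → ℝ := (1 - p ⬝ᵥ v)⁻¹ • v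

/-- The translation. -/
def tr (p u : Fin n → ℝ) : Fin n → ℝ := u - p

theorem DP.symm (h : DP K T) : DP T K := ⟨h.cT, h.cK, h.eT, h.eK⟩

theorem convex_pol (K : Set (Fin n → ℝ)) : Convex ℝ (pol K) := by
  intro x hx y hy a b ha hb hab u hu
  rw [add_dotProduct, smul_dotProduct, smul_dotProduct, smul_eq_mul, smul_eq_mul]
  nlinarith [hx u hu, hy u hu]

theorem zero_mem_pol (K : Set (Fin n → ℝ)) : (0 : Fin n → ℝ) ∈ pol K := by
  intro u _
  simp

theorem isClosed_pol (K : Set (Fin n → ℝ)) : IsClosed (pol K) := by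
  have : pol K = ⋂ u ∈ K, {v : Fin n → ℝ | v ⬝ᵥ u ≤ 1} := by
    ext v; simp [pol]
  rw [this]
  exact isClosed_biInter fun u _ => isClosed_le (by fun_prop) continuous_const

theorem DP.le (h : DP K T) {u v : Fin n → ℝ} (hu : u ∈ K) (hv : v ∈ T) : v ⬝ᵥ u ≤ 1 := by
  rw [h.eT] at hv
  exact hv u hu

theorem DP.zero (h : DP K T) : (0 : Fin n → ℝ) ∈ K := h.eK ▸ zero_mem_pol T

theorem DP.convex (h : DP K T) : Convex ℝ K := h.eK ▸ convex_pol T

theorem DP.mem (h : DP K T) {p : Fin n → ℝ} (hp : Dom T p 1) : p ∈ K := by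
  rw [h.eK]
  exact fun v hv => (hp v hv).le

theorem abs_dot_le (u v : Fin n → ℝ) : |u ⬝ᵥ v| ≤ n * (‖u‖ * ‖v‖) := by
  calc |u ⬝ᵥ v| ≤ ∑ i, |u i * v i| := Finset.abs_sum_le_sum_abs _ _
    _ ≤ ∑ _i : Fin n, ‖u‖ * ‖v‖ := Finset.sum_le_sum fun i _ => by
        rw [abs_mul]
        exact mul_le_mul (norm_le_pi_norm u i) (norm_le_pi_norm v i) (abs_nonneg _) (norm_nonneg _)
    _ = n * (‖u‖ * ‖v‖) := by simp

/-- A linear form is bounded on a compact set. -/
theorem exists_dot_bound (hK : IsCompact K) (η : Fin n → ℝ) : ∃ M, 0 ≤ M ∧ ∀ u ∈ K, |η ⬝ᵥ u| ≤ M := by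
  obtain ⟨R, hR⟩ := hK.isBounded.exists_norm_le
  refine ⟨n * (‖η‖ * max R 0), by positivity, fun u hu => (abs_dot_le η u).trans ?_⟩
  gcongr
  exact (hR u hu).trans (le_max_left _ _)

theorem DP.ball (h : DP K T) : ∃ ρ, 0 < ρ ∧ ∀ u : Fin n → ℝ, ‖u‖ ≤ ρ → u ∈ K := by
  obtain ⟨R, hR⟩ := h.cT.isBounded.exists_norm_le
  refine ⟨1 / (n * max R 0 + 1), by positivity, fun u hu => ?_⟩
  rw [h.eK]
  intro v hv
  have h1 := (le_abs_self _).trans (abs_dot_le u v)
  have h2 : ‖v‖ ≤ max R 0 := (hR v hv).trans (le_max_left _ _)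
  have h3 : (0 : ℝ) < n * max R 0 + 1 := by positivity
  have h4 : ‖u‖ * ‖v‖ ≤ 1 / (n * max R 0 + 1) * max R 0 := by gcongr
  calc u ⬝ᵥ v ≤ n * (‖u‖ * ‖v‖) := h1
    _ ≤ n * (1 / (n * max R 0 + 1) * max R 0) := by gcongr
    _ = n * max R 0 / (n * max R 0 + 1) := by ring
    _ ≤ 1 := by rw [div_le_one h3]; linarith

theorem DP.zero_int (h : DP K T) : (0 : Fin n → ℝ) ∈ interior K := by
  obtain ⟨ρ, hρ, hb⟩ := h.ball
  rw [mem_interior_iff_mem_nhds]
  filter_upwards [Metric.closedBall_mem_nhds (0 : Fin n → ℝ) hρ] with u hu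
  exact hb u (by simpa using hu)

theorem DP.body (h : DP K T) : IsConvexBody K := ⟨h.convex, h.cK, ⟨0, h.zero_int⟩⟩

theorem vol_pos (hK : IsConvexBody K) : 0 < vol K :=
  ENNReal.toReal_pos (Measure.measure_pos_of_nonempty_interior volume hK.2.2).ne'
    hK.2.1.measure_lt_top.ne

theorem DP.bound (h : DP K T) : ∃ R, 0 ≤ R ∧ ∀ u ∈ K, ∀ v ∈ T, |v ⬝ᵥ u| ≤ R := by
  obtain ⟨R, hR⟩ := h.cT.isBounded.exists_norm_le
  obtain ⟨S, hS⟩ := h.cK.isBounded.exists_norm_le
  refine ⟨n * (max R 0 * max S 0), by positivity, fun u hu v hv => (abs_dot_le v u).trans ?_⟩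
  gcongr
  · exact (hR v hv).trans (le_max_left _ _)
  · exact (hS u hu).trans (le_max_left _ _)

/-- The bipolar theorem. -/
theorem dp_of_body (hK : IsConvexBody K) (h0 : (0 : Fin n → ℝ) ∈ interior K) : DP K (pol K) := by
  obtain ⟨ρ, hρ, hb⟩ := Metric.mem_nhds_iff.1 (mem_interior_iff_mem_nhds.1 h0)
  refine ⟨hK.2.1, ?_, ?_, rfl⟩
  · refine Metric.isCompact_of_isClosed_isBounded (isClosed_pol K) ?_
    refine (Metric.isBounded_closedBall (x := (0 : Fin n → ℝ)) (r := 2 / ρ)).subset fun v hv => ?_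
    rw [mem_closedBall_zero_iff, pi_norm_le_iff_of_nonneg (by positivity)]
    intro i
    have key : ∀ c : ℝ, |c| ≤ ρ / 2 → v i * c ≤ 1 := by
      intro c hc
      have := hv (Pi.single i c) (hb (by
        rw [mem_ball_zero_iff, Pi.norm_single, Real.norm_eq_abs]; linarith))
      simpa using this
    have h1 := key (ρ / 2) (by rw [abs_of_pos (by positivity)])
    have h2 := key (-(ρ / 2)) (by rw [abs_neg, abs_of_pos (by positivity)])
    rw [Real.norm_eq_abs, le_div_iff₀ hρ, ← abs_of_pos hρ, ← abs_mul, abs_le]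
    constructor <;> linarith
  · refine Subset.antisymm (fun u hu v hv => ?_) fun p hp => ?_
    · rw [dotProduct_comm]; exact hv u hu
    · by_contra hn
      obtain ⟨f, c, h1, h2⟩ := geometric_hahn_banach_closed_point hK.1 hK.2.1.isClosed hn
      have hc : 0 < c := by simpa using h1 0 (interior_subset h0)
      have hf : ∀ u : Fin n → ℝ, f u = (fun i => f (Pi.single i 1)) ⬝ᵥ u := by
        intro u
        conv_lhs => rw [show u = ∑ i, u i • (Pi.single i 1 : Fin n → ℝ) by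
          ext j; simp [Finset.sum_apply, Pi.single_apply]]
        rw [map_sum]
        simp [dotProduct, mul_comm]
      have h3 : (c⁻¹ • fun i => f (Pi.single i 1)) ∈ pol K := by
        intro u hu
        rw [smul_dotProduct, ← hf, smul_eq_mul, inv_mul_le_iff₀ hc, mul_one]
        exact (h1 u hu).le
      have h4 := hp _ h3
      rw [dotProduct_comm, smul_dotProduct, ← hf, smul_eq_mul, inv_mul_le_iff₀ hc, mul_one] at h4
      linarith

theorem dot_phi (p v w : Fin n → ℝ) : w ⬝ᵥ phi p v = (1 - p ⬝ᵥ v)⁻¹ * (w ⬝ᵥ v) := by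
  rw [phi, dotProduct_smul, smul_eq_mul]

theorem continuousOn_phi {p : Fin n → ℝ} (hp : Dom T p 1) : ContinuousOn (phi p) T := by
  unfold phi
  have h1 : ContinuousOn (fun v : Fin n → ℝ => 1 - p ⬝ᵥ v) T := by fun_prop
  exact (h1.inv₀ fun v hv => (sub_pos.2 (hp v hv)).ne').smul continuousOn_id

/-- Translating one body transforms the other one projectively. -/
theorem DP.step (h : DP K T) {p : Fin n → ℝ} (hp : Dom T p 1) : DP (tr p '' K) (phi p '' T) := by
  refine ⟨h.cK.image (by unfold tr; fun_prop), h.cT.image_of_continuousOn (continuousOn_phi hp), ?_, ?_⟩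
  · ext w
    constructor
    · rintro ⟨u, hu, rfl⟩ _ ⟨v, hv, rfl⟩
      have h1 := sub_pos.2 (hp v hv)
      rw [dot_phi, tr, sub_dotProduct, inv_mul_le_iff₀ h1, mul_one, dotProduct_comm u]
      linarith [h.le hu hv]
    · intro hw
      refine ⟨w + p, ?_, by simp [tr]⟩
      rw [h.eK]
      intro v hv
      have h1 := sub_pos.2 (hp v hv)
      have h2 := hw _ ⟨v, hv, rfl⟩
      rw [dot_phi, inv_mul_le_iff₀ h1, mul_one] at h2
      rw [add_dotProduct]
      linarith
  · ext w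
    constructor
    · rintro ⟨v, hv, rfl⟩ _ ⟨u, hu, rfl⟩
      have h1 := sub_pos.2 (hp v hv)
      rw [dotProduct_comm, dot_phi, tr, sub_dotProduct, inv_mul_le_iff₀ h1, mul_one, dotProduct_comm u]
      linarith [h.le hu hv]
    · intro hw
      have h1 : ∀ u ∈ K, w ⬝ᵥ u ≤ 1 + p ⬝ᵥ w := by
        intro u hu
        have := hw _ ⟨u, hu, rfl⟩
        rw [tr, dotProduct_sub, dotProduct_comm w p] at this
        linarith
      have h2 : 0 < 1 + p ⬝ᵥ w := by
        by_contra hn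
        obtain ⟨ρ, hρ, hb⟩ := h.ball
        have h3 : w = 0 := by
          ext i
          have key : ∀ c : ℝ, |c| ≤ ρ → w i * c ≤ 0 := by
            intro c hc
            have := h1 (Pi.single i c) (hb _ (by rw [Pi.norm_single, Real.norm_eq_abs]; exact hc))
            rw [dotProduct_single] at this
            linarith
          have h4 := key ρ (by rw [abs_of_pos hρ])
          have h5 := key (-ρ) (by rw [abs_neg, abs_of_pos hρ])
          have : w i * ρ = 0 := by linarith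
          simpa [hρ.ne'] using this
        rw [h3] at hn
        simp at hn
      refine ⟨(1 + p ⬝ᵥ w)⁻¹ • w, ?_, ?_⟩
      · rw [h.eT]
        intro u hu
        rw [smul_dotProduct, smul_eq_mul, inv_mul_le_iff₀ h2, mul_one]
        exact h1 u hu
      · rw [phi, dotProduct_smul, smul_eq_mul, smul_smul]
        have : (1 - (1 + p ⬝ᵥ w)⁻¹ * (p ⬝ᵥ w))⁻¹ * (1 + p ⬝ᵥ w)⁻¹ = 1 := by
          rw [← mul_inv, sub_mul, one_mul, mul_right_comm, inv_mul_cancel₀ h2.ne']
          simp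
        rw [this, one_smul]

theorem tr_eq (p : Fin n → ℝ) : tr p = aff 1 (-p) := by
  ext1 u
  simp [tr, aff, sub_eq_add_neg]

theorem int_tr (hK : MeasurableSet K) (p : Fin n → ℝ) (g : (Fin n → ℝ) → ℝ) :
    ∫ u in tr p '' K, g u = ∫ u in K, g (u - p) := by
  rw [tr_eq, setIntegral_aff_image (by simp) _ hK, ← tr_eq]
  simp [tr]

theorem vol_tr (hK : MeasurableSet K) (p : Fin n → ℝ) : vol (tr p '' K) = vol K := by
  rw [tr_eq, vol, volume_aff_image (by simp) _ hK]
  simp [vol]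

theorem F_tr (hK : MeasurableSet K) (p η : Fin n → ℝ) (s : ℝ) :
    F (tr p '' K) η s = F K η (s + η ⬝ᵥ p) := by
  rw [F, int_tr hK, F]
  refine setIntegral_congr_fun hK fun u _ => ?_
  simp only [dotProduct_sub]
  congr 2
  ring

theorem det_rk (a b : Fin n → ℝ) : (1 + vecMulVec a b).det = 1 + b ⬝ᵥ a := by
  rw [vecMulVec_eq Unit, det_one_add_replicateCol_mul_replicateRow]

theorem hasFDerivAt_phi (p v : Fin n → ℝ) (h : 1 - p ⬝ᵥ v ≠ 0) :
    HasFDerivAt (phi p) (LinearMap.toContinuousLinearMap (Matrix.toLin'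
      ((1 - p ⬝ᵥ v)⁻¹ • (1 + vecMulVec ((1 - p ⬝ᵥ v)⁻¹ • v) p)))) v := by
  let L : (Fin n → ℝ) →L[ℝ] ℝ := LinearMap.toContinuousLinearMap
    { toFun := fun v => p ⬝ᵥ v
      map_add' := fun x y => dotProduct_add _ _ _
      map_smul' := fun c x => dotProduct_smul _ _ _ }
  have h1 : HasFDerivAt (fun v => 1 - p ⬝ᵥ v) (-L) v := (L.hasFDerivAt (x := v)).const_sub 1
  have h2 := ((hasDerivAt_inv h).comp_hasFDerivAt v h1).smul (hasFDerivAt_id v)
  refine HasFDerivAt.congr_fderiv h2 ?_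
  ext w i
  simp [L, vecMulVec_mulVec, add_mulVec, smul_mulVec]
  field_simp

theorem int_phi (hT : MeasurableSet T) {p : Fin n → ℝ} (hp : Dom T p 1) (g : (Fin n → ℝ) → ℝ) :
    ∫ v in phi p '' T, g v = ∫ v in T, ((1 - p ⬝ᵥ v) ^ (n + 1))⁻¹ * g (phi p v) := by
  have hinj : InjOn (phi p) T := by
    intro v hv w hw e
    have h1 := sub_pos.2 (hp v hv)
    have h2 := sub_pos.2 (hp w hw)
    have h3 := congrArg (fun z => p ⬝ᵥ z) e
    simp only [dot_phi] at h3
    have h4 : p ⬝ᵥ v = p ⬝ᵥ w := by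
      field_simp at h3
      linarith
    rw [phi, phi, h4] at e
    exact smul_right_injective _ (inv_ne_zero h2.ne') e
  rw [integral_image_eq_integral_abs_det_fderiv_smul volume hT
    (fun v hv => (hasFDerivAt_phi p v (sub_pos.2 (hp v hv)).ne').hasFDerivWithinAt) hinj]
  refine setIntegral_congr_fun hT fun v hv => ?_
  have h1 := sub_pos.2 (hp v hv)
  simp only [smul_eq_mul]
  congr 1
  rw [ContinuousLinearMap.det]
  simp only [LinearMap.coe_toContinuousLinearMap, LinearMap.det_toLin', det_smul, det_rk,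
    Fintype.card_fin, dotProduct_smul, smul_eq_mul]
  have : (1 - p ⬝ᵥ v)⁻¹ ^ n * (1 + (1 - p ⬝ᵥ v)⁻¹ * p ⬝ᵥ v) = ((1 - p ⬝ᵥ v) ^ (n + 1))⁻¹ := by
    rw [inv_pow, pow_succ]
    field_simp
    ring
  rw [this, abs_of_pos (by positivity)]

theorem F_phi (hT : MeasurableSet T) {p : Fin n → ℝ} (hp : Dom T p 1) (ξ : Fin n → ℝ) (r : ℝ) :
    F (phi p '' T) ξ r = F T (ξ + r • p) r := by
  rw [F, int_phi hT hp, F]
  refine setIntegral_congr_fun hT fun v hv => ?_
  have h1 := sub_pos.2 (hp v hv)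
  simp only [dot_phi, add_dotProduct, smul_dotProduct, smul_eq_mul]
  rw [← mul_inv, ← mul_pow]
  congr 2
  field_simp
  ring

theorem F_zero (K : Set (Fin n → ℝ)) : F K 0 1 = vol K := by
  simp [F, vol, Measure.real]

theorem vol_phi (hT : MeasurableSet T) {p : Fin n → ℝ} (hp : Dom T p 1) :
    vol (phi p '' T) = F T p 1 := by
  rw [← F_zero, F_phi hT hp]
  simp

theorem intOn_F (hK : IsCompact K) {η : Fin n → ℝ} {s : ℝ} (h : Dom K η s) :
    IntegrableOn (fun u => ((s - η ⬝ᵥ u) ^ (n + 1))⁻¹) K := by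
  refine ContinuousOn.integrableOn_compact hK (ContinuousOn.inv₀ (by fun_prop) fun u hu => ?_)
  exact pow_ne_zero _ (sub_pos.2 (h u hu)).ne'

/-- Lower bound from a subset. -/
theorem F_ge (hK : IsCompact K) {η : Fin n → ℝ} {s M : ℝ} (h : Dom K η s) {S : Set (Fin n → ℝ)}
    (hS : MeasurableSet S) (hSK : S ⊆ K) (hM : ∀ u ∈ S, s - η ⬝ᵥ u ≤ M) :
    vol S * (M ^ (n + 1))⁻¹ ≤ F K η s := by
  have hfin : volume S ≠ ⊤ := ((measure_mono hSK).trans_lt hK.measure_lt_top).ne
  calc vol S * (M ^ (n + 1))⁻¹ = ∫ _u in S, (M ^ (n + 1))⁻¹ := by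
        simp [vol, Measure.real]
    _ ≤ ∫ u in S, ((s - η ⬝ᵥ u) ^ (n + 1))⁻¹ := by
        refine setIntegral_mono_on (integrableOn_const hfin) ((intOn_F hK h).mono_set hSK) hS
          fun u hu => ?_
        have h1 := sub_pos.2 (h u (hSK hu))
        exact inv_anti₀ (by positivity) (pow_le_pow_left₀ h1.le (hM u hu) _)
    _ ≤ F K η s := by
        refine setIntegral_mono_set (intOn_F hK h) ?_ hSK.eventuallyLE
        filter_upwards [self_mem_ae_restrict hK.measurableSet] with u hu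
        have h1 := sub_pos.2 (h u hu)
        positivity

theorem F_pos (hK : IsConvexBody K) {η : Fin n → ℝ} {s : ℝ} (h : Dom K η s) : 0 < F K η s := by
  obtain ⟨M, hM0, hM⟩ := exists_dot_bound hK.2.1 η
  refine lt_of_lt_of_le ?_ (F_ge (M := |s| + M + 1) hK.2.1 h hK.2.1.measurableSet subset_rfl
    fun u hu => ?_)
  · have := vol_pos hK
    positivity
  · have := abs_le.1 (hM u hu)
    linarith [le_abs_self s]

theorem F_smul (K : Set (Fin n → ℝ)) (η : Fin n → ℝ) (s c : ℝ) :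
    F K (c • η) (c * s) = (c ^ (n + 1))⁻¹ * F K η s := by
  rw [F, F, ← integral_const_mul]
  refine integral_congr_ae (Eventually.of_forall fun u => ?_)
  simp only [smul_dotProduct, smul_eq_mul]
  rw [← mul_sub, mul_pow, mul_inv]

/-- Blow-up near the boundary. -/
theorem F_blow (h : DP K T) {R : ℝ} (hR0 : 0 ≤ R) (hR : ∀ u ∈ K, ∀ v ∈ T, |v ⬝ᵥ u| ≤ R)
    {q u0 : Fin n → ℝ} (hq : Dom K q 1) (hu0 : u0 ∈ K) (hδ : 1 - q ⬝ᵥ u0 ≤ 1) :
    vol K / (2 + R) ^ (n + 1) ≤ (1 - q ⬝ᵥ u0) * F K q 1 := by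
  set δ := 1 - q ⬝ᵥ u0 with hδe
  have hδ0 : 0 < δ := sub_pos.2 (hq u0 hu0)
  have hqT : q ∈ T := h.symm.mem hq
  have hA : (δ • (1 : Matrix (Fin n) (Fin n) ℝ)).det = δ ^ n := by simp
  have e : ∀ u, aff (δ • (1 : Matrix (Fin n) (Fin n) ℝ)) ((1 - δ) • u0) u = δ • u + (1 - δ) • u0 := by
    intro u; simp [aff, smul_mulVec]
  have h1 := F_ge (M := δ * (2 + R)) h.cK hq
    (S := aff (δ • (1 : Matrix (Fin n) (Fin n) ℝ)) ((1 - δ) • u0) '' K)
    (isCompact_aff_image _ _ h.cK).measurableSet ?_ ?_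
  · rw [vol, volume_aff_image (by rw [hA]; positivity) _ h.cK.measurableSet, hA,
      abs_of_pos (by positivity)] at h1
    calc vol K / (2 + R) ^ (n + 1)
        = δ * (δ ^ n * (volume K).toReal * ((δ * (2 + R)) ^ (n + 1))⁻¹) := by
          rw [vol, mul_pow, pow_succ δ]
          field_simp
      _ ≤ δ * F K q 1 := by gcongr
  · rintro _ ⟨u, hu, rfl⟩
    rw [e]
    exact h.convex hu hu0 hδ0.le (by linarith) (by ring)
  · rintro _ ⟨u, hu, rfl⟩
    rw [e, dotProduct_add, dotProduct_smul, dotProduct_smul, smul_eq_mul, smul_eq_mul]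
    have h2 := (abs_le.1 (hR u hu q hqT)).1
    have h3 : q ⬝ᵥ u0 = 1 - δ := by rw [hδe]; ring
    rw [h3]
    nlinarith

/-- A crude lower bound for the volume product. -/
theorem DP.crude (h : DP K T) : (1 / (n.factorial : ℝ)) ^ 2 ≤ vol K * vol T := by
  classical
  obtain ⟨ρ, hρ, hb⟩ := h.ball
  have hc : IsCompact (Set.pi univ fun _ : Fin n => K) := isCompact_univ_pi fun _ => h.cK
  obtain ⟨B, hB, hmax⟩ := hc.exists_isMaxOn ⟨fun _ => 0, fun i _ => h.zero⟩
    (f := fun B : Fin n → Fin n → ℝ => |(Matrix.of B).det|) (by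
      refine Continuous.continuousOn (Continuous.abs ?_)
      exact Continuous.matrix_det (by fun_prop))
  set A : Matrix (Fin n) (Fin n) ℝ := Matrix.of B with hA
  have hD : 0 < |A.det| := by
    refine lt_of_lt_of_le ?_ (hmax (a := fun i => Pi.single i ρ) fun i _ => hb _ ?_)
    · have : (Matrix.of fun i => (Pi.single i ρ : Fin n → ℝ)) = ρ • (1 : Matrix (Fin n) (Fin n) ℝ) := by
        ext i j
        simp [Pi.single_apply, one_apply, eq_comm]
      simp only [this, det_smul, det_one, mul_one]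
      positivity
    · rw [Pi.norm_single, Real.norm_eq_abs, abs_of_pos hρ]
  have hD' : A.det ≠ 0 := abs_pos.1 hD
  have hu : IsUnit A.det := isUnit_iff_ne_zero.2 hD'
  have h1 : aff Aᵀ 0 '' stdS n ⊆ K := by
    rintro _ ⟨x, hx, rfl⟩
    have e : aff Aᵀ 0 x = ∑ i, x i • B i + (1 - ∑ i, x i) • (0 : Fin n → ℝ) := by
      ext j
      simp [aff, mulVec, dotProduct, hA, Finset.sum_apply, mul_comm]
    have := h.convex.sum_mem (t := (Finset.univ : Finset (Option (Fin n))))
      (w := fun o => o.elim (1 - ∑ i, x i) x) (z := fun o => o.elim 0 B)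
      (fun o _ => by cases o <;> simp [hx.1, hx.2]) (by simp)
      (fun o _ => by cases o <;> simp [h.zero, hB _ (mem_univ _)])
    rw [e]
    simpa [add_comm] using this
  have h2 : aff A⁻¹ 0 '' stdS n ⊆ T := by
    rintro _ ⟨x, hx, rfl⟩
    rw [h.eT]
    intro u hu'
    have ht : ∀ i, (u ᵥ* A⁻¹) i ≤ 1 := by
      intro i
      have h3 := hmax (a := Function.update B i u) fun j _ => by
        by_cases hj : j = i
        · subst hj; simpa using hu'
        · simpa [Function.update_of_ne hj] using hB j (mem_univ _)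
      have h4 : (Matrix.of (Function.update B i u)) = A.updateRow i u := rfl
      have h5 : u = ∑ k, (u ᵥ* A⁻¹) k • A k := by
        have : (u ᵥ* A⁻¹) ᵥ* A = u := by rw [vecMul_vecMul, nonsing_inv_mul _ hu, vecMul_one]
        conv_lhs => rw [← this]
        ext j
        simp [vecMul, dotProduct, Finset.sum_apply]
      simp only [mem_setOf_eq, h4] at h3
      rw [h5, det_updateRow_sum, smul_eq_mul, abs_mul] at h3
      have h6 : |(u ᵥ* A⁻¹) i| ≤ 1 := by
        by_contra hn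
        nlinarith
      exact (le_abs_self _).trans h6
    rw [aff, add_zero, dotProduct_comm, dotProduct_mulVec]
    calc (u ᵥ* A⁻¹) ⬝ᵥ x ≤ ∑ i, x i := Finset.sum_le_sum fun i _ => by
          nlinarith [ht i, hx.1 i]
      _ ≤ 1 := hx.2
  have h3 : |A.det| * (1 / (n.factorial : ℝ)) ≤ vol K := by
    have := ENNReal.toReal_mono (h.cK.measure_lt_top (μ := volume)).ne (measure_mono h1)
    rwa [volume_aff_image (by rwa [det_transpose]) _ measurableSet_stdS, volume_stdS,
      det_transpose] at this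
  have h4 : |A.det|⁻¹ * (1 / (n.factorial : ℝ)) ≤ vol T := by
    have hi : (A⁻¹).det = (A.det)⁻¹ := by rw [det_nonsing_inv, Ring.inverse_eq_inv']
    have := ENNReal.toReal_mono (h.cT.measure_lt_top (μ := volume)).ne (measure_mono h2)
    rwa [volume_aff_image (by rw [hi]; exact inv_ne_zero hD') _ measurableSet_stdS, volume_stdS,
      hi, abs_inv] at this
  calc (1 / (n.factorial : ℝ)) ^ 2
      = (|A.det| * (1 / (n.factorial : ℝ))) * (|A.det|⁻¹ * (1 / (n.factorial : ℝ))) := by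
        field_simp
    _ ≤ vol K * vol T := mul_le_mul h3 h4 (by positivity) ((by positivity : (0 : ℝ) ≤ _).trans h3)

end Vale.Agent.N248
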