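import Vale.Agent.N248.CoreA

/-! The second order condition at a minimiser of the penalised volume product. -/

set_option linter.all false

open MeasureTheory Set Matrix Filter Topology

namespace Vale.Agent.N248

open Vale.Agent.P254

variable {n : ℕ} {K T : Set (Fin n → ℝ)}

/-- The logarithmic functional on the product of the two cones. -/
noncomputable def Lg (a : ℝ) (K T : Set (Fin n → ℝ)) (ξ : Fin n → ℝ) (r : ℝ) (η : Fin n → ℝ)
    (s : ℝ) : ℝ :=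
  Real.log (F K η s) + Real.log (F T ξ r) + a * Real.log (r * s - ξ ⬝ᵥ η)

/-- All symmetric second differences are nonnegative. -/
def Crit (a : ℝ) (K T : Set (Fin n → ℝ)) (ξ : Fin n → ℝ) (r : ℝ) (η : Fin n → ℝ) (s : ℝ) : Prop :=
  ∀ (x : Fin n → ℝ) (c : ℝ) (y : Fin n → ℝ) (d : ℝ), ∀ᶠ t in 𝓝 (0 : ℝ),
    2 * Lg a K T ξ r η s ≤ Lg a K T (ξ + t • x) (r + t * c) (η + t • y) (s + t * d) +
      Lg a K T (ξ + (-t) • x) (r + (-t) * c) (η + (-t) • y) (s + (-t) * d)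

theorem Lg_swap (a : ℝ) (K T : Set (Fin n → ℝ)) (ξ : Fin n → ℝ) (r : ℝ) (η : Fin n → ℝ) (s : ℝ) :
    Lg a T K η s ξ r = Lg a K T ξ r η s := by
  rw [Lg, Lg, dotProduct_comm η, mul_comm s r]
  ring

theorem Crit.swap {a r s : ℝ} {ξ η : Fin n → ℝ} (h : Crit a K T ξ r η s) : Crit a T K η s ξ r := by
  intro x c y d
  filter_upwards [h y d x c] with t ht
  simpa only [Lg_swap a K T] using ht

theorem Lg_step (h : DP K T) {p : Fin n → ℝ} (hp : Dom T p 1) (a : ℝ) (ξ : Fin n → ℝ) (r : ℝ)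
    (η : Fin n → ℝ) (s : ℝ) :
    Lg a (tr p '' K) (phi p '' T) ξ r η s = Lg a K T (ξ + r • p) r η (s + η ⬝ᵥ p) := by
  rw [Lg, Lg, F_tr h.cK.measurableSet, F_phi h.cT.measurableSet hp]
  congr 3
  rw [add_dotProduct, smul_dotProduct, smul_eq_mul, dotProduct_comm p]
  ring

theorem Crit.step (h : DP K T) {p : Fin n → ℝ} (hp : Dom T p 1) {a r s : ℝ} {ξ η : Fin n → ℝ}
    (hc : Crit a K T (ξ + r • p) r η (s + η ⬝ᵥ p)) : Crit a (tr p '' K) (phi p '' T) ξ r η s := by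
  intro x c y d
  filter_upwards [hc (x + c • p) c y (d + y ⬝ᵥ p)] with t ht
  have e1 : ∀ t : ℝ, ξ + t • x + (r + t * c) • p = ξ + r • p + t • (x + c • p) := by
    intro t; ext i; simp; ring
  have e2 : ∀ t : ℝ, s + t * d + (η + t • y) ⬝ᵥ p = s + η ⬝ᵥ p + t * (d + y ⬝ᵥ p) := by
    intro t
    rw [add_dotProduct, smul_dotProduct, smul_eq_mul]; ring
  simp only [Lg_step h hp, e1, e2]
  exact ht

theorem Dom.smul {η : Fin n → ℝ} {s c : ℝ} (h : Dom K η s) (hc : 0 < c) : Dom K (c • η) (c * s) := by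
  intro u hu
  rw [smul_dotProduct, smul_eq_mul]
  exact mul_lt_mul_of_pos_left (h u hu) hc

theorem Dom.norm {η : Fin n → ℝ} {s : ℝ} (h : Dom K η s) (hs : 0 < s) : Dom K (s⁻¹ • η) 1 := by
  have := h.smul (inv_pos.2 hs)
  rwa [inv_mul_cancel₀ hs.ne'] at this

theorem DP.pair (h : DP K T) {p q : Fin n → ℝ} (hp : Dom T p 1) (hq : Dom K q 1) : 0 < 1 - p ⬝ᵥ q := by
  have := hq p (h.mem hp)
  rw [dotProduct_comm]
  linarith

/-- Homogeneity. -/
theorem Lg_smul (h : DP K T) {p q : Fin n → ℝ} (hp : Dom T p 1) (hq : Dom K q 1) (a : ℝ) {r s : ℝ}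
    (hr : 0 < r) (hs : 0 < s) :
    Lg a K T (r • p) r (s • q) s =
      Lg a K T p 1 q 1 - (n + 1 - a) * (Real.log r + Real.log s) := by
  have h1 := F_smul K q 1 s
  have h2 := F_smul T p 1 r
  rw [mul_one] at h1 h2
  have h3 := F_pos h.body hq
  have h4 := F_pos h.symm.body hp
  have h5 := h.pair hp hq
  have e : r * s - (r • p) ⬝ᵥ (s • q) = r * (s * (1 * 1 - p ⬝ᵥ q)) := by
    rw [smul_dotProduct, dotProduct_smul, smul_eq_mul, smul_eq_mul]; ring
  rw [Lg, Lg, h1, h2, e, one_mul, Real.log_mul (by positivity) h3.ne',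
    Real.log_mul (by positivity) h4.ne', Real.log_mul hr.ne' (by positivity),
    Real.log_mul hs.ne' h5.ne', Real.log_inv, Real.log_inv, Real.log_pow, Real.log_pow]
  push_cast
  ring

theorem Dom.ev (hK : IsCompact K) {η : Fin n → ℝ} {s : ℝ} (h : Dom K η s) (y : Fin n → ℝ) (d : ℝ) :
    ∀ᶠ t in 𝓝 (0 : ℝ), Dom K (η + t • y) (s + t * d) := by
  refine hK.eventually_forall_of_forall_eventually (P := fun (t : ℝ) u => (η + t • y) ⬝ᵥ u < s + t * d)
    fun u hu => ?_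
  refine ContinuousAt.eventually_lt (f := fun z : ℝ × (Fin n → ℝ) => (η + z.1 • y) ⬝ᵥ z.2)
    (g := fun z : ℝ × (Fin n → ℝ) => s + z.1 * d) (by fun_prop) (by fun_prop) ?_
  simpa using h u hu

theorem ev_neg {P : ℝ → Prop} (h : ∀ᶠ t in 𝓝 (0 : ℝ), P t) : ∀ᶠ t in 𝓝 (0 : ℝ), P (-t) := by
  have : Tendsto (fun t : ℝ => -t) (𝓝 0) (𝓝 0) := by simpa using (continuous_neg.tendsto (0 : ℝ))
  exact this.eventually h

theorem ev_pos {r : ℝ} (hr : 0 < r) (c : ℝ) : ∀ᶠ t in 𝓝 (0 : ℝ), 0 < r + t * c :=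
  ContinuousAt.eventually_lt (f := fun _ : ℝ => (0 : ℝ)) (g := fun t : ℝ => r + t * c) (by fun_prop)
    (by fun_prop) (by simpa using hr)

theorem log_sym {r c t : ℝ} (h1 : 0 < r + t * c) (h2 : 0 < r + (-t) * c) :
    Real.log (r + t * c) + Real.log (r + (-t) * c) ≤ 2 * Real.log r := by
  rw [← Real.log_mul h1.ne' h2.ne', show (2 : ℝ) * Real.log r = Real.log (r ^ 2) by
    rw [Real.log_pow]; norm_num]
  exact Real.log_le_log (by positivity) (by nlinarith [sq_nonneg (t * c)])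

/-- A global minimiser satisfies the second order condition. -/
theorem crit_of_min (h : DP K T) {a : ℝ} (ha : a ≤ n + 1) {p q : Fin n → ℝ} (hp : Dom T p 1)
    (hq : Dom K q 1)
    (hm : ∀ p' q', Dom T p' 1 → Dom K q' 1 → Lg a K T p 1 q 1 ≤ Lg a K T p' 1 q' 1) {r s : ℝ}
    (hr : 0 < r) (hs : 0 < s) : Crit a K T (r • p) r (s • q) s := by
  intro x c y d
  have hp' := (hp.smul hr).ev h.cT x c
  have hq' := (hq.smul hs).ev h.cK y d
  rw [mul_one] at hp' hq'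
  have key : ∀ (ξ η : Fin n → ℝ) (r' s' : ℝ), 0 < r' → 0 < s' → Dom T ξ r' → Dom K η s' →
      Lg a K T p 1 q 1 - (n + 1 - a) * (Real.log r' + Real.log s') ≤ Lg a K T ξ r' η s' := by
    intro ξ η r' s' h1 h2 h3 h4
    have h5 := Lg_smul h (h3.norm h1) (h4.norm h2) a h1 h2
    rw [smul_smul, smul_smul, mul_inv_cancel₀ h1.ne', mul_inv_cancel₀ h2.ne', one_smul, one_smul] at h5
    rw [h5]
    linarith [hm _ _ (h3.norm h1) (h4.norm h2)]
  filter_upwards [hp', hq', ev_neg hp', ev_neg hq', ev_pos hr c, ev_pos hs d, ev_neg (ev_pos hr c),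
    ev_neg (ev_pos hs d)] with t h1 h2 h3 h4 h5 h6 h7 h8
  have h9 := key _ _ _ _ h5 h6 h1 h2
  have h10 := key _ _ _ _ h7 h8 h3 h4
  rw [Lg_smul h hp hq a hr hs]
  have h11 := log_sym h5 h7
  have h12 := log_sym h6 h8
  nlinarith [mul_le_mul_of_nonneg_left (add_le_add h11 h12) (sub_nonneg.2 ha)]

/-- Moving a pair of points to the origin. -/
theorem DP.move (h : DP K T) {p q : Fin n → ℝ} (hp : Dom T p 1) (hq : Dom K q 1) :
    ∃ K' T' : Set (Fin n → ℝ), DP K' T' ∧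
      vol K' * vol T' = F K q 1 * F T p 1 * (1 - p ⬝ᵥ q) ^ (n + 1) ∧
      ∀ a, Crit a K T p 1 ((1 - p ⬝ᵥ q)⁻¹ • q) (1 - p ⬝ᵥ q)⁻¹ → Crit a K' T' 0 1 0 1 := by
  have hκ := h.pair hp hq
  set κ := 1 - p ⬝ᵥ q with hκe
  have h1 := h.step hp
  have e : 1 + (κ⁻¹ • q) ⬝ᵥ p = κ⁻¹ := by
    rw [smul_dotProduct, smul_eq_mul, dotProduct_comm q]
    field_simp
    rw [hκe]; ring
  have hq1 : Dom (tr p '' K) (κ⁻¹ • q) 1 := by
    rintro _ ⟨u, hu, rfl⟩
    rw [smul_dotProduct, smul_eq_mul, inv_mul_lt_iff₀ hκ, tr, dotProduct_sub, dotProduct_comm q p]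
    linarith [hq u hu]
  have h2 := h1.symm.step hq1
  refine ⟨_, _, h2.symm, ?_, fun a hc => ?_⟩
  · rw [vol_phi h1.cK.measurableSet hq1, vol_tr h1.cT.measurableSet, vol_phi h.cT.measurableSet hp,
      F_tr h.cK.measurableSet, e]
    have := F_smul K q 1 κ⁻¹
    rw [mul_one] at this
    rw [this, inv_pow, inv_inv]
    ring
  · have h3 : Crit a (tr p '' K) (phi p '' T) 0 1 (κ⁻¹ • q) 1 := by
      refine Crit.step h hp ?_
      rwa [e, zero_add, one_smul]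
    refine (Crit.step h1.symm hq1 ?_).swap
    simpa using h3.swap

theorem taylor (N : ℕ) : ∃ C, 0 ≤ C ∧ ∀ z : ℝ, |z| ≤ 1 / 2 →
    |((1 - z) ^ N)⁻¹ - (1 + N * z + N * (N + 1) / 2 * z ^ 2)| ≤ C * |z| ^ 3 := by
  induction N with
  | zero => exact ⟨0, le_rfl, fun z _ => by simp⟩
  | succ N ih =>
    obtain ⟨C, hC, h⟩ := ih
    refine ⟨2 * (C + (N + 1) * (N + 2) / 2), by positivity, fun z hz => ?_⟩
    have h1 : 1 / 2 ≤ 1 - z := by linarith [(abs_le.1 hz).2]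
    have h2 : 0 < 1 - z := by linarith
    have e : ((1 - z) ^ (N + 1))⁻¹ - (1 + ((N + 1 : ℕ) : ℝ) * z +
        ((N + 1 : ℕ) : ℝ) * (((N + 1 : ℕ) : ℝ) + 1) / 2 * z ^ 2) =
        (((1 - z) ^ N)⁻¹ - (1 + N * z + N * (N + 1) / 2 * z ^ 2) +
          (N + 1) * (N + 2) / 2 * z ^ 3) / (1 - z) := by
      push_cast
      field_simp
      ring
    rw [e, abs_div, abs_of_pos h2, div_le_iff₀ h2]
    have h3 := abs_add_le (((1 - z) ^ N)⁻¹ - (1 + N * z + N * (N + 1) / 2 * z ^ 2))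
      ((N + 1) * (N + 2) / 2 * z ^ 3)
    rw [abs_mul, abs_pow, abs_of_nonneg (by positivity : (0 : ℝ) ≤ (N + 1) * (N + 2) / 2)] at h3
    have h4 : 0 ≤ (C + (N + 1) * (N + 2) / 2) * |z| ^ 3 := by positivity
    nlinarith [h z hz]

/-- The quadratic form of the covariance matrix. -/
noncomputable def Q (K : Set (Fin n → ℝ)) (η : Fin n → ℝ) : ℝ := η ⬝ᵥ (covMatrix K *ᵥ η)

theorem Q_eq (hK : IsCompact K) (η : Fin n → ℝ) :
    Q K η = (vol K)⁻¹ * ∫ u in K, (η ⬝ᵥ u - η ⬝ᵥ centroid K) ^ 2 := by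
  have e : Q K η = ∑ i, ∑ j, η i * covMatrix K i j * η j := by
    simp only [Q, dotProduct, mulVec, Finset.mul_sum]
    refine Finset.sum_congr rfl fun i _ => Finset.sum_congr rfl fun j _ => ?_
    ring
  rw [e, cov_quad hK, vol]
  simp only [dotProduct, mul_sub, Finset.sum_sub_distrib]

theorem int_centered (hK : IsConvexBody K) (η : Fin n → ℝ) :
    ∫ u in K, (η ⬝ᵥ u - η ⬝ᵥ centroid K) = 0 := by
  have hV := vol_pos hK
  rw [integral_sub (intOn hK.2.1 (by fun_prop)) (intOn hK.2.1 (by fun_prop)), setIntegral_const]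
  simp only [dotProduct]
  rw [integral_finsetSum _ fun i _ => intOn hK.2.1 (by fun_prop)]
  simp only [integral_const_mul, centroid, smul_eq_mul, Measure.real, Finset.mul_sum]
  rw [sub_eq_zero]
  refine Finset.sum_congr rfl fun i _ => ?_
  unfold vol at hV
  field_simp

/-- Second order expansion of `log F` in a centred direction. -/
theorem F_exp (hK : IsConvexBody K) (η : Fin n → ℝ) : ∃ C, ∀ᶠ t in 𝓝 (0 : ℝ),
    Real.log (F K (0 + t • η) (1 + t * (η ⬝ᵥ centroid K))) ≤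
      Real.log (vol K) + (n + 1) * (n + 2) / 2 * Q K η * t ^ 2 + C * |t| ^ 3 := by
  obtain ⟨C, hC0, hC⟩ := taylor (n + 1)
  obtain ⟨M0, hM00, hM0⟩ := exists_dot_bound hK.2.1 η
  set σ := η ⬝ᵥ centroid K with hσ
  set M := M0 + |σ| with hMe
  have hM : ∀ u ∈ K, |η ⬝ᵥ u - σ| ≤ M := fun u hu =>
    (abs_sub _ _).trans (add_le_add (hM0 u hu) le_rfl)
  have hMn : 0 ≤ M := by positivity
  have hV := vol_pos hK
  refine ⟨C * M ^ 3, ?_⟩
  have hev : ∀ᶠ t in 𝓝 (0 : ℝ), |t| * M < 1 / 2 :=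
    ContinuousAt.eventually_lt (f := fun t : ℝ => |t| * M) (g := fun _ => 1 / 2) (by fun_prop)
      (by fun_prop) (by simp)
  filter_upwards [hev] with t ht
  have hz : ∀ u ∈ K, |t * (η ⬝ᵥ u - σ)| ≤ |t| * M := fun u hu => by
    rw [abs_mul]; exact mul_le_mul_of_nonneg_left (hM u hu) (abs_nonneg _)
  have e : ∀ u : Fin n → ℝ, 1 + t * σ - (0 + t • η) ⬝ᵥ u = 1 - t * (η ⬝ᵥ u - σ) := by
    intro u
    rw [zero_add, smul_dotProduct, smul_eq_mul]; ring
  have hD : Dom K (0 + t • η) (1 + t * σ) := by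
    intro u hu
    have := e u
    have h2 := (abs_le.1 (hz u hu)).2
    linarith
  have h1 : F K (0 + t • η) (1 + t * σ) ≤ ∫ u in K, (1 + C * M ^ 3 * |t| ^ 3 +
      ((n + 1) * t) * (η ⬝ᵥ u - σ) + ((n + 1) * (n + 2) / 2 * t ^ 2) * (η ⬝ᵥ u - σ) ^ 2) := by
    refine setIntegral_mono_on (intOn_F hK.2.1 hD) (intOn hK.2.1 (by fun_prop))
      hK.2.1.measurableSet fun u hu => ?_
    rw [e]
    have h2 := (abs_le.1 (hC _ ((hz u hu).trans ht.le))).2
    have h3 : C * |t * (η ⬝ᵥ u - σ)| ^ 3 ≤ C * (|t| * M) ^ 3 := by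
      gcongr
      exact hz u hu
    push_cast at h2
    nlinarith
  rw [integral_add (intOn hK.2.1 (by fun_prop)) (intOn hK.2.1 (by fun_prop)),
    integral_add (intOn hK.2.1 (by fun_prop)) (intOn hK.2.1 (by fun_prop)), integral_const_mul,
    integral_const_mul, hσ, int_centered hK, setIntegral_const, smul_eq_mul, Measure.real] at h1
  have h4 : ∫ u in K, (η ⬝ᵥ u - η ⬝ᵥ centroid K) ^ 2 = vol K * Q K η := by
    rw [Q_eq hK.2.1]; field_simp
  rw [h4, ← hσ] at h1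
  have h5 := F_pos hK hD
  have h6 := Real.log_le_sub_one_of_pos (div_pos h5 hV)
  rw [Real.log_div h5.ne' hV.ne'] at h6
  have h7 : F K (0 + t • η) (1 + t * σ) / vol K ≤
      1 + (n + 1) * (n + 2) / 2 * Q K η * t ^ 2 + C * M ^ 3 * |t| ^ 3 := by
    rw [div_le_iff₀ hV]
    refine h1.trans (le_of_eq ?_)
    unfold vol
    ring
  linarith

theorem nonneg_of_ev {A C : ℝ} (h : ∀ᶠ t in 𝓝 (0 : ℝ), 0 ≤ A * t ^ 2 + C * |t| ^ 3) : 0 ≤ A := by
  have h1 : Tendsto (fun t : ℝ => A + C * |t|) (𝓝[>] 0) (𝓝 A) := by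
    have : Continuous fun t : ℝ => A + C * |t| := by fun_prop
    simpa using (this.tendsto 0).mono_left (nhdsWithin_le_nhds (s := Ioi 0))
  refine ge_of_tendsto h1 ?_
  filter_upwards [h.filter_mono (nhdsWithin_le_nhds (s := Ioi 0)), self_mem_nhdsWithin] with t ht h0
  have h2 : 0 < t := h0
  rw [abs_of_pos h2] at ht ⊢
  by_contra hn
  nlinarith [mul_pos (pow_pos h2 2) (neg_pos.2 (not_le.1 hn))]

/-- The second order condition in terms of covariances. -/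
theorem Crit.quad (hK : IsConvexBody K) (hT : IsConvexBody T) {a : ℝ} (ha : 0 ≤ a)
    (hc : Crit a K T 0 1 0 1) (ξ η : Fin n → ℝ) :
    2 * a * (ξ ⬝ᵥ η) ≤ (n + 1) * (n + 2) * (Q K η + Q T ξ) := by
  obtain ⟨C1, h1⟩ := F_exp hK η
  obtain ⟨C2, h2⟩ := F_exp hT ξ
  set σ := η ⬝ᵥ centroid K
  set ρ := ξ ⬝ᵥ centroid T
  set β := ρ * σ - ξ ⬝ᵥ η with hβ
  have e : ∀ t : ℝ, (1 + t * ρ) * (1 + t * σ) - (0 + t • ξ) ⬝ᵥ (0 + t • η) =
      1 + t * (ρ + σ) + t ^ 2 * β := by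
    intro t
    rw [zero_add, zero_add, smul_dotProduct, dotProduct_smul, smul_eq_mul, smul_eq_mul, hβ]; ring
  have h3 : ∀ᶠ t in 𝓝 (0 : ℝ), 0 < 1 + t * (ρ + σ) + t ^ 2 * β :=
    ContinuousAt.eventually_lt (f := fun _ : ℝ => (0 : ℝ))
      (g := fun t : ℝ => 1 + t * (ρ + σ) + t ^ 2 * β) (by fun_prop) (by fun_prop) (by simp)
  have h4 : ∀ᶠ t in 𝓝 (0 : ℝ), |t| < 1 :=
    ContinuousAt.eventually_lt (f := fun t : ℝ => |t|) (g := fun _ => 1) (by fun_prop)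
      (by fun_prop) (by simp)
  have := nonneg_of_ev (A := (n + 1) * (n + 2) * (Q K η + Q T ξ) - 2 * a * (ξ ⬝ᵥ η))
    (C := 2 * C1 + 2 * C2 + a * β ^ 2) (by
      filter_upwards [hc ξ ρ η σ, h1, h2, ev_neg h1, ev_neg h2, h3, ev_neg h3, h4]
        with t g0 g1 g2 g3 g4 g5 g6 g7
      simp only [Lg, e, F_zero] at g0
      rw [abs_neg, neg_sq] at g3 g4
      rw [neg_sq] at g6 g0
      have g8 := Real.log_le_sub_one_of_pos (mul_pos g5 g6)
      rw [Real.log_mul g5.ne' g6.ne'] at g8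
      have g9 : t ^ 4 ≤ |t| ^ 3 := by
        have : t ^ 4 = |t| ^ 3 * |t| := by
          rw [← pow_succ, ← abs_pow, abs_of_nonneg (Even.pow_nonneg (by norm_num) t)]
        rw [this]
        exact mul_le_of_le_one_right (by positivity) g7.le
      have g10 : (1 + t * (ρ + σ) + t ^ 2 * β) * (1 + -t * (ρ + σ) + t ^ 2 * β) - 1 ≤
          -2 * (ξ ⬝ᵥ η) * t ^ 2 + β ^ 2 * |t| ^ 3 := by
        have : ξ ⬝ᵥ η = ρ * σ - β := by rw [hβ]; ring
        rw [this]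
        nlinarith [mul_le_mul_of_nonneg_left g9 (sq_nonneg β), mul_nonneg (sq_nonneg t) (sq_nonneg ρ),
          mul_nonneg (sq_nonneg t) (sq_nonneg σ)]
      have g11 := mul_le_mul_of_nonneg_left (g8.trans g10) ha
      simp only [dotProduct_zero, mul_one, sub_zero, Real.log_one, mul_zero, add_zero] at g0
      nlinarith)
  linarith

theorem trace_mul_nonneg {A B : Matrix (Fin n) (Fin n) ℝ} (hA : A.PosSemidef) (hB : B.PosSemidef) :
    0 ≤ (A * B).trace := by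
  open scoped MatrixOrder in
  obtain ⟨S, rfl⟩ := CStarAlgebra.nonneg_iff_eq_star_mul_self.mp hA.nonneg
  have h1 : (S * B * Sᴴ).PosSemidef := hB.mul_mul_conjTranspose_same S
  rw [star_eq_conjTranspose, Matrix.mul_assoc, Matrix.trace_mul_comm]
  exact h1.trace_nonneg

theorem posDef_of_quad {C D : Matrix (Fin n) (Fin n) ℝ} (hC : C.PosSemidef) {l : ℝ} (hl : 0 < l)
    (h : ∀ ξ η, 2 * l * (ξ ⬝ᵥ η) ≤ η ⬝ᵥ (C *ᵥ η) + ξ ⬝ᵥ (D *ᵥ ξ)) : C.PosDef := by
  refine PosDef.of_dotProduct_mulVec_pos hC.1 fun η hη => ?_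
  rw [star_trivial]
  have h0 : 0 < η ⬝ᵥ η := by
    refine lt_of_le_of_ne (Finset.sum_nonneg fun i _ => mul_self_nonneg _) fun e => hη ?_
    exact dotProduct_self_eq_zero.1 e.symm
  set d := η ⬝ᵥ (D *ᵥ η)
  set m := η ⬝ᵥ η
  have h1 := h ((l * m / (|d| + 1)) • η) η
  rw [smul_dotProduct, smul_dotProduct, mulVec_smul, dotProduct_smul, smul_eq_mul, smul_eq_mul,
    smul_eq_mul] at h1
  set t := l * m / (|d| + 1) with ht
  have h2 : 0 < t := by positivity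
  have h3 : t * (|d| + 1) = l * m := by rw [ht]; field_simp
  have h4 : t * d ≤ l * m := by nlinarith [le_abs_self d]
  nlinarith [mul_le_mul_of_nonneg_left h4 h2.le, mul_pos h2 (mul_pos hl h0)]

theorem det_ge_of_quad (hn : 0 < n) {C D : Matrix (Fin n) (Fin n) ℝ} (hC : C.PosSemidef)
    (hD : D.PosSemidef) {l : ℝ} (hl : 0 < l)
    (h : ∀ ξ η, 2 * l * (ξ ⬝ᵥ η) ≤ η ⬝ᵥ (C *ᵥ η) + ξ ⬝ᵥ (D *ᵥ ξ)) : l ^ (2 * n) ≤ C.det * D.det := by
  have hC' := posDef_of_quad hC hl h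
  have hD' : D.PosDef := posDef_of_quad (D := C) hD hl fun ξ η => by
    rw [dotProduct_comm, add_comm]; exact h η ξ
  have uC : IsUnit C.det := isUnit_iff_ne_zero.2 hC'.det_pos.ne'
  have uD : IsUnit D.det := isUnit_iff_ne_zero.2 hD'.det_pos.ne'
  have hP : (l ^ 2 • C⁻¹).PosSemidef := hC'.inv.posSemidef.smul (sq_nonneg l)
  have h1 : (D - l ^ 2 • C⁻¹).PosSemidef := by
    refine PosSemidef.of_dotProduct_mulVec_nonneg (hD.1.sub hP.1) fun ξ => ?_
    have h2 := h ξ (l • (C⁻¹ *ᵥ ξ))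
    rw [mulVec_smul, mulVec_mulVec, mul_nonsing_inv _ uC, one_mulVec, dotProduct_smul,
      dotProduct_smul, smul_dotProduct, dotProduct_comm (C⁻¹ *ᵥ ξ)] at h2
    rw [star_trivial, sub_mulVec, dotProduct_sub, smul_mulVec, dotProduct_smul]
    simp only [smul_eq_mul] at h2 ⊢
    nlinarith
  have h3 := trace_mul_nonneg hD'.inv.posSemidef h1
  rw [Matrix.mul_sub, nonsing_inv_mul _ uD, trace_sub, trace_one, Fintype.card_fin] at h3
  have h4 := det_mul_det_le hn hD'.inv.posSemidef hP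
  have hn' : (0 : ℝ) < n := by exact_mod_cast hn
  have h5 : ((D⁻¹ * l ^ 2 • C⁻¹).trace / n) ^ n ≤ 1 :=
    pow_le_one₀ (div_nonneg (trace_mul_nonneg hD'.inv.posSemidef hP) hn'.le)
      ((div_le_one hn').2 (by linarith))
  have h6 := h4.trans h5
  rw [det_smul, det_nonsing_inv, det_nonsing_inv, Ring.inverse_eq_inv', Fintype.card_fin,
    ← pow_mul] at h6
  have h7 := hC'.det_pos
  have h8 := hD'.det_pos
  calc l ^ (2 * n) = (D.det⁻¹ * (l ^ (2 * n) * C.det⁻¹)) * (C.det * D.det) := by field_simp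
    _ ≤ 1 * (C.det * D.det) := by gcongr
    _ = _ := one_mul _

/-- The product of the determinants of the covariance matrices at a critical pair. -/
theorem Crit.det (hn : 0 < n) (hK : IsConvexBody K) (hT : IsConvexBody T) {a : ℝ} (ha : 0 < a)
    (hc : Crit a K T 0 1 0 1) :
    (a / ((n + 1) * (n + 2))) ^ (2 * n) ≤ (covMatrix K).det * (covMatrix T).det := by
  refine det_ge_of_quad hn (covMatrix_posSemidef hK.2.1) (covMatrix_posSemidef hT.2.1)
    (by positivity) fun ξ η => ?_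
  have := hc.quad hK hT ha.le ξ η
  have h0 : (0 : ℝ) < (n + 1) * (n + 2) := by positivity
  rw [← mul_div_assoc, div_mul_eq_mul_div, div_le_iff₀ h0]
  unfold Q at this
  linarith

end Vale.Agent.N248
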