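import Vale.Agent.N248.CoreB

/-! Existence of minimisers, and the general Mahler inequality from the strong slicing bound. -/

set_option linter.all false

open MeasureTheory Set Matrix Filter Topology

namespace Vale.Agent.N248

open Vale.Agent.P254

variable {n : ℕ} {K T : Set (Fin n → ℝ)}

/-- The volume product of a simplex. -/
noncomputable def cn (n : ℕ) : ℝ := ((n : ℝ) + 1) ^ (n + 1) / (n.factorial : ℝ) ^ 2

/-- The value of `det Σ / |K|²` for a simplex. -/
noncomputable def rn (n : ℕ) : ℝ :=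
  (n.factorial : ℝ) ^ 2 / (((n : ℝ) + 1) * (((n : ℝ) + 1) * (n + 2)) ^ n)

/-- The strong slicing bound in dimension `n`. -/
def Slice (n : ℕ) : Prop := ∀ K : Set (Fin n → ℝ), IsConvexBody K →
  (covMatrix K).det ≤ rn n * vol K ^ 2 ∧ ((covMatrix K).det = rn n * vol K ^ 2 → IsSimplex K)

theorem cn_pos (n : ℕ) : 0 < cn n := by unfold cn; positivity

theorem rn_pos (n : ℕ) : 0 < rn n := by unfold rn; positivity

theorem rn_cn (n : ℕ) (a : ℝ) :
    (a / ((n + 1) * (n + 2))) ^ n = rn n * ((a / (n + 1)) ^ n * cn n) := by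
  unfold rn cn
  have : (n.factorial : ℝ) ≠ 0 := by positivity
  simp only [div_pow, mul_pow, pow_succ]
  field_simp

theorem Crit.prod (hn : 0 < n) (hs : Slice n) (hK : IsConvexBody K) (hT : IsConvexBody T) {a : ℝ}
    (ha : 0 < a) (hc : Crit a K T 0 1 0 1) : (a / (n + 1)) ^ n * cn n ≤ vol K * vol T := by
  have h1 := hc.det hn hK hT ha
  have h2 := mul_le_mul (hs K hK).1 (hs T hT).1 (covMatrix_posSemidef hT.2.1).det_nonneg
    (by have := rn_pos n; positivity)
  have h3 := vol_pos hK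
  have h4 := vol_pos hT
  have h5 := rn_pos n
  rw [pow_mul', rn_cn] at h1
  have h6 : (rn n * ((a / (n + 1)) ^ n * cn n)) ^ 2 ≤ (rn n * (vol K * vol T)) ^ 2 :=
    (h1.trans h2).trans (le_of_eq (by ring))
  exact le_of_mul_le_mul_left (le_of_sq_le_sq h6 (by positivity)) h5

theorem Crit.simplex (hn : 0 < n) (hs : Slice n) (hK : IsConvexBody K) (hT : IsConvexBody T)
    (hc : Crit (n + 1) K T 0 1 0 1) (he : vol K * vol T = cn n) : IsSimplex K := by
  have h1 := hc.det hn hK hT (by positivity)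
  have h3 := vol_pos hK
  have h4 := vol_pos hT
  have h5 := rn_pos n
  rw [pow_mul', rn_cn, div_self (by positivity), one_pow, one_mul, ← he] at h1
  refine (hs K hK).2 (le_antisymm (hs K hK).1 ?_)
  have h6 := mul_le_mul_of_nonneg_left (hs T hT).1 (covMatrix_posSemidef hK.2.1).det_nonneg
  have h7 : 0 < rn n * vol T ^ 2 := by positivity
  refine le_of_mul_le_mul_right ?_ h7
  calc rn n * vol K ^ 2 * (rn n * vol T ^ 2) = (rn n * (vol K * vol T)) ^ 2 := by ring
    _ ≤ _ := h1.trans h6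

theorem dom_zero (K : Set (Fin n → ℝ)) : Dom K 0 1 := fun u _ => by simp

theorem DP.margin (h : DP K T) (B : ℝ) : ∃ δ, 0 < δ ∧ ∀ q, Dom K q 1 → Real.log (F K q 1) ≤ B →
    ∀ u ∈ K, q ⬝ᵥ u ≤ 1 - δ := by
  obtain ⟨R, hR0, hR⟩ := h.bound
  have hV := vol_pos h.body
  refine ⟨min 1 (vol K / (2 + R) ^ (n + 1) / Real.exp B), by positivity, fun q hq hB u hu => ?_⟩
  by_cases h1 : 1 - q ⬝ᵥ u ≤ 1
  · have h2 := F_blow h hR0 hR hq hu h1
    have h3 : F K q 1 ≤ Real.exp B := (Real.log_le_iff_le_exp (F_pos h.body hq)).1 hB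
    have h4 := h2.trans (mul_le_mul_of_nonneg_left h3 (sub_pos.2 (hq u hu)).le)
    rw [← div_le_iff₀ (Real.exp_pos B)] at h4
    linarith [min_le_right 1 (vol K / (2 + R) ^ (n + 1) / Real.exp B)]
  · linarith [min_le_left 1 (vol K / (2 + R) ^ (n + 1) / Real.exp B)]

theorem DP.low (h : DP K T) : ∃ m, ∀ q, Dom K q 1 → m ≤ Real.log (F K q 1) := by
  obtain ⟨R, hR0, hR⟩ := h.bound
  have hV := vol_pos h.body
  refine ⟨Real.log (vol K * ((1 + R) ^ (n + 1))⁻¹), fun q hq => Real.log_le_log (by positivity) ?_⟩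
  refine F_ge h.cK hq h.cK.measurableSet subset_rfl fun u hu => ?_
  linarith [(abs_le.1 (hR u hu q (h.symm.mem hq))).1]

/-- The points with margin `δ`. -/
def Mg (K : Set (Fin n → ℝ)) (δ : ℝ) : Set (Fin n → ℝ) := {q | ∀ u ∈ K, q ⬝ᵥ u ≤ 1 - δ}

theorem Mg.dom {δ : ℝ} (hδ : 0 < δ) {q : Fin n → ℝ} (hq : q ∈ Mg K δ) : Dom K q 1 :=
  fun u hu => by linarith [hq u hu]

theorem DP.compact_Mg (h : DP K T) {δ : ℝ} (hδ : 0 < δ) : IsCompact (Mg K δ) := by
  refine h.cT.of_isClosed_subset ?_ fun q hq => h.symm.mem (Mg.dom hδ hq)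
  have : Mg K δ = ⋂ u ∈ K, {v : Fin n → ℝ | v ⬝ᵥ u ≤ 1 - δ} := by
    ext v; simp [Mg]
  rw [this]
  exact isClosed_biInter fun u _ => isClosed_le (by fun_prop) continuous_const

theorem contOn_F (hK : IsCompact K) {δ : ℝ} (hδ : 0 < δ) :
    ContinuousOn (fun q => F K q 1) (Mg K δ) := by
  have h1 : Continuous fun q : Fin n → ℝ => ∫ u in K, ((max δ (1 - q ⬝ᵥ u)) ^ (n + 1))⁻¹ := by
    refine continuous_parametric_integral_of_continuous ?_ hK
    refine Continuous.inv₀ (by fun_prop) fun z => ?_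
    exact pow_ne_zero _ (lt_of_lt_of_le hδ (le_max_left _ _)).ne'
  refine h1.continuousOn.congr fun q hq => ?_
  refine setIntegral_congr_fun hK.measurableSet fun u hu => ?_
  change ((1 - q ⬝ᵥ u) ^ (n + 1))⁻¹ = ((max δ (1 - q ⬝ᵥ u)) ^ (n + 1))⁻¹
  rw [max_eq_right (by linarith [hq u hu])]

theorem contOn_logF (hK : IsConvexBody K) {δ : ℝ} (hδ : 0 < δ) :
    ContinuousOn (fun q => Real.log (F K q 1)) (Mg K δ) :=
  (contOn_F hK.2.1 hδ).log fun q hq => (F_pos hK (Mg.dom hδ hq)).ne'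

theorem log_prod (h : DP K T) {p q : Fin n → ℝ} (hp : Dom T p 1) (hq : Dom K q 1) (a : ℝ) :
    Real.log (F K q 1 * F T p 1 * (1 - p ⬝ᵥ q) ^ (n + 1)) =
      Lg a K T p 1 q 1 + (n + 1 - a) * Real.log (1 - p ⬝ᵥ q) := by
  have h3 := F_pos h.body hq
  have h4 := F_pos h.symm.body hp
  have h5 := h.pair hp hq
  rw [Real.log_mul (by positivity) (by positivity), Real.log_mul h3.ne' h4.ne', Real.log_pow, Lg,
    one_mul]
  push_cast
  ring

/-- The penalised functional attains its minimum. -/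
theorem DP.exists_min (h : DP K T) {a : ℝ} (ha0 : 0 ≤ a) (ha : a < n + 1) :
    ∃ p q, Dom T p 1 ∧ Dom K q 1 ∧
      ∀ p' q', Dom T p' 1 → Dom K q' 1 → Lg a K T p 1 q 1 ≤ Lg a K T p' 1 q' 1 := by
  obtain ⟨mK, hmK⟩ := h.low
  obtain ⟨mT, hmT⟩ := h.symm.low
  set G0 := Lg a K T 0 1 0 1
  set M := (Real.log ((1 / (n.factorial : ℝ)) ^ 2) - G0) / (n + 1 - a) with hM
  obtain ⟨δ1, hδ1, h1⟩ := h.margin (G0 - mT - a * M)
  obtain ⟨δ2, hδ2, h2⟩ := h.symm.margin (G0 - mK - a * M)
  have key : ∀ p q, Dom T p 1 → Dom K q 1 → Lg a K T p 1 q 1 ≤ G0 →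
      (p, q) ∈ Mg T δ2 ×ˢ Mg K δ1 := by
    intro p q hp hq hG
    obtain ⟨K', T', h', hv, -⟩ := h.move hp hq
    have h3 := Real.log_le_log (by positivity) h'.crude
    rw [hv, log_prod h hp hq a] at h3
    have h4 : M ≤ Real.log (1 - p ⬝ᵥ q) := by
      rw [hM, div_le_iff₀ (by linarith)]
      linarith
    have h5 := mul_le_mul_of_nonneg_left h4 ha0
    have h6 := hmK q hq
    have h7 := hmT p hp
    rw [Lg, one_mul] at hG
    exact ⟨h2 p hp (by linarith), h1 q hq (by linarith)⟩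
  have hc := (h.symm.compact_Mg hδ2).prod (h.compact_Mg hδ1)
  have h0 := key 0 0 (dom_zero T) (dom_zero K) le_rfl
  have hcont : ContinuousOn (fun z : (Fin n → ℝ) × (Fin n → ℝ) => Lg a K T z.1 1 z.2 1)
      (Mg T δ2 ×ˢ Mg K δ1) := by
    unfold Lg
    refine (((contOn_logF h.body hδ1).comp continuousOn_snd fun z hz => hz.2).add
      ((contOn_logF h.symm.body hδ2).comp continuousOn_fst fun z hz => hz.1)).add
      (continuousOn_const.mul (ContinuousOn.log (by fun_prop) fun z hz => ?_))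
    rw [one_mul]
    exact (h.pair (Mg.dom hδ2 hz.1) (Mg.dom hδ1 hz.2)).ne'
  obtain ⟨z, hz, hmin⟩ := hc.exists_isMinOn ⟨_, h0⟩ hcont
  refine ⟨z.1, z.2, Mg.dom hδ2 hz.1, Mg.dom hδ1 hz.2, fun p q hp hq => ?_⟩
  by_cases hG : Lg a K T p 1 q 1 ≤ G0
  · exact isMinOn_iff.1 hmin (p, q) (key p q hp hq hG)
  · exact (isMinOn_iff.1 hmin (0, 0) h0).trans (not_le.1 hG).le

/-- The general Mahler inequality for all projective images. -/
theorem DP.main (hn : 0 < n) (hs : Slice n) (h : DP K T) {p q : Fin n → ℝ} (hp : Dom T p 1)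
    (hq : Dom K q 1) : cn n ≤ F K q 1 * F T p 1 * (1 - p ⬝ᵥ q) ^ (n + 1) := by
  obtain ⟨R, hR0, hR⟩ := h.bound
  have h3 := F_pos h.body hq
  have h4 := F_pos h.symm.body hp
  have h5 := h.pair hp hq
  have hc := cn_pos n
  rw [← Real.log_le_log_iff hc (by positivity)]
  have hn1 : (0 : ℝ) < n + 1 := by positivity
  have ht : Tendsto (fun a : ℝ => n * Real.log (a / (n + 1)) + Real.log (cn n) +
      (n + 1 - a) * (Real.log (1 - p ⬝ᵥ q) - Real.log (1 + R))) (𝓝[<] (n + 1))
      (𝓝 (Real.log (cn n))) := by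
    have : ContinuousAt (fun a : ℝ => n * Real.log (a / (n + 1)) + Real.log (cn n) +
        (n + 1 - a) * (Real.log (1 - p ⬝ᵥ q) - Real.log (1 + R))) (n + 1) := by
      refine ((continuousAt_const.mul (ContinuousAt.log (by fun_prop) ?_)).add
        continuousAt_const).add (by fun_prop)
      exact (div_pos hn1 hn1).ne'
    simpa [div_self hn1.ne'] using this.tendsto.mono_left (nhdsWithin_le_nhds (s := Iio ((n : ℝ) + 1)))
  refine le_of_tendsto ht ?_
  filter_upwards [Ioo_mem_nhdsLT hn1] with a ha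
  obtain ⟨p0, q0, hp0, hq0, hm⟩ := h.exists_min ha.1.le ha.2
  obtain ⟨K', T', h', hv, hcr⟩ := h.move hp0 hq0
  have h6 := h.pair hp0 hq0
  have h7 := crit_of_min h ha.2.le hp0 hq0 hm one_pos (inv_pos.2 h6)
  rw [one_smul] at h7
  have h8 := Real.log_le_log (by have := ha.1; positivity)
    ((hcr a h7).prod hn hs h'.body h'.symm.body ha.1)
  rw [hv, log_prod h hp0 hq0 a, Real.log_mul (by have := ha.1; positivity) hc.ne',
    Real.log_pow] at h8
  have h9 : Real.log (1 - p0 ⬝ᵥ q0) ≤ Real.log (1 + R) := by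
    refine Real.log_le_log h6 ?_
    have := (abs_le.1 (hR p0 (h.mem hp0) q0 (h.symm.mem hq0))).1
    rw [dotProduct_comm] at this
    linarith
  rw [log_prod h hp hq a]
  nlinarith [hm p q hp hq, mul_le_mul_of_nonneg_left h9 (sub_pos.2 ha.2).le]

theorem DP.ge (hn : 0 < n) (hs : Slice n) (h : DP K T) : cn n ≤ vol K * vol T := by
  simpa [F_zero] using h.main hn hs (dom_zero T) (dom_zero K)

theorem DP.simplex (hn : 0 < n) (hs : Slice n) (h : DP K T) (he : vol K * vol T = cn n) :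
    IsSimplex K := by
  have h1 := crit_of_min h (a := n + 1) le_rfl (dom_zero T) (dom_zero K) (fun p q hp hq => by
    have h2 := Real.log_le_log (cn_pos n) (h.main hn hs hp hq)
    have h3 := log_prod h (dom_zero T) (dom_zero K) (n + 1)
    rw [log_prod h hp hq (n + 1)] at h2
    simp only [F_zero, dotProduct_zero, sub_zero, one_pow, mul_one, he] at h3
    simp only [sub_self, zero_mul, add_zero] at h2 h3
    linarith) one_pos one_pos
  rw [smul_zero] at h1
  exact h1.simplex hn hs h.body h.symm.body he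

/-- Existence of the Santalo point. -/
theorem DP.santalo (h : DP K T) :
    ∃ p, Dom T p 1 ∧ ∀ p', Dom T p' 1 → F T p 1 ≤ F T p' 1 := by
  obtain ⟨δ, hδ, h1⟩ := h.symm.margin (Real.log (F T 0 1))
  have h0 : (0 : Fin n → ℝ) ∈ Mg T δ := h1 0 (dom_zero T) le_rfl
  obtain ⟨p, hp, hmin⟩ := (h.symm.compact_Mg hδ).exists_isMinOn ⟨_, h0⟩ (contOn_F h.cT hδ)
  refine ⟨p, Mg.dom hδ hp, fun p' hp' => ?_⟩
  by_cases hG : F T p' 1 ≤ F T 0 1
  · exact hmin (h1 p' hp' (Real.log_le_log (F_pos h.symm.body hp') hG))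
  · exact (hmin h0).trans (not_le.1 hG).le

theorem DP.dom_iff (h : DP K T) {p : Fin n → ℝ} : Dom T p 1 ↔ p ∈ interior K := by
  constructor
  · intro hp
    rw [mem_interior_iff_mem_nhds]
    have := h.cT.eventually_forall_of_forall_eventually (x₀ := p)
      (P := fun (x : Fin n → ℝ) v => x ⬝ᵥ v < 1) fun v hv =>
        ContinuousAt.eventually_lt (f := fun z : (Fin n → ℝ) × (Fin n → ℝ) => z.1 ⬝ᵥ z.2)
          (g := fun _ => (1 : ℝ)) (by fun_prop) (by fun_prop) (hp v hv)
    filter_upwards [this] with x hx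
    exact h.mem hx
  · intro hp v hv
    have h1 : Tendsto (fun t : ℝ => t • p) (𝓝[>] 1) (𝓝 p) := by
      have : Continuous fun t : ℝ => t • p := by fun_prop
      simpa using (this.tendsto 1).mono_left (nhdsWithin_le_nhds (s := Ioi 1))
    obtain ⟨t, ht, ht1⟩ := ((h1.eventually (mem_interior_iff_mem_nhds.1 hp)).and
      self_mem_nhdsWithin).exists
    have h2 := h.le ht hv
    have h3 : 1 < t := ht1
    rw [dotProduct_smul, smul_eq_mul, dotProduct_comm] at h2
    by_contra hn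
    nlinarith

theorem tr_homeo (z : Fin n → ℝ) : tr z = Homeomorph.subRight z := rfl

theorem mem_int_tr {z p : Fin n → ℝ} : p - z ∈ interior (tr z '' K) ↔ p ∈ interior K := by
  rw [tr_homeo, ← Homeomorph.image_interior]
  exact (Homeomorph.subRight z).injective.mem_set_image

theorem body_tr (hK : IsConvexBody K) (z : Fin n → ℝ) : IsConvexBody (tr z '' K) := by
  obtain ⟨p, hp⟩ := hK.2.2
  refine ⟨?_, hK.2.1.image (by unfold tr; fun_prop), ⟨_, mem_int_tr.2 hp⟩⟩
  have := hK.1.translate (-z)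
  have e : (fun x => -z + x) = tr z := by ext1 x; simp [tr, neg_add_eq_sub]
  rwa [e] at this

theorem dp_tr (hK : IsConvexBody K) {z : Fin n → ℝ} (hz : z ∈ interior K) :
    DP (tr z '' K) (pol (tr z '' K)) :=
  dp_of_body (body_tr hK z) (by simpa using (mem_int_tr (z := z)).2 hz)

theorem simplex_of_tr {z : Fin n → ℝ} (h : IsSimplex (tr z '' K)) : IsSimplex K := by
  obtain ⟨A, b, hA, e⟩ := h.exists_aff
  have : K = aff A (b + z) '' stdS n := by
    have h1 : K = tr (-z) '' (tr z '' K) := by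
      rw [← image_comp]
      have : tr (-z) ∘ tr z = id := by ext1 x; simp [tr]
      rw [this, image_id]
    rw [h1, e, ← image_comp]
    congr 1
    ext1 x
    simp [tr, aff, add_assoc]
  rw [this]
  exact isSimplex_image hA _

/-- The inequality at every interior point. -/
theorem ge_at (hn : 0 < n) (hs : Slice n) (hK : IsConvexBody K) {z : Fin n → ℝ}
    (hz : z ∈ interior K) : cn n ≤ vol K * vol (pol (tr z '' K)) := by
  have := (dp_tr hK hz).ge hn hs
  rwa [vol_tr hK.2.1.measurableSet] at this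

theorem simplex_at (hn : 0 < n) (hs : Slice n) (hK : IsConvexBody K) {z : Fin n → ℝ}
    (hz : z ∈ interior K) (he : vol K * vol (pol (tr z '' K)) = cn n) : IsSimplex K := by
  refine simplex_of_tr ((dp_tr hK hz).simplex hn hs ?_)
  rwa [vol_tr hK.2.1.measurableSet]

theorem exists_santalo (hK : IsConvexBody K) :
    ∃ z ∈ interior K, ∀ w ∈ interior K, vol (pol (tr z '' K)) ≤ vol (pol (tr w '' K)) := by
  obtain ⟨z0, hz0⟩ := hK.2.2
  have h := dp_tr hK hz0
  have key : ∀ w ∈ interior K, Dom (pol (tr z0 '' K)) (w - z0) 1 ∧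
      vol (pol (tr w '' K)) = F (pol (tr z0 '' K)) (w - z0) 1 := by
    intro w hw
    have h1 := h.dom_iff.2 ((mem_int_tr (z := z0)).2 hw)
    refine ⟨h1, ?_⟩
    have h2 := (h.step h1).eT
    have e : tr (w - z0) '' (tr z0 '' K) = tr w '' K := by
      rw [← image_comp]
      congr 1
      ext1 x
      simp [tr]
    rw [← vol_phi h.cT.measurableSet h1, h2, e]
  obtain ⟨p, hp, hm⟩ := h.santalo
  have h3 : p + z0 ∈ interior K := (mem_int_tr (z := z0)).1 (by simpa using h.dom_iff.1 hp)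
  refine ⟨p + z0, h3, fun w hw => ?_⟩
  rw [(key w hw).2, (key _ h3).2, add_sub_cancel_right]
  exact hm _ (key w hw).1

/-- The volume product of a simplex at its centroid. -/
theorem simplex_val {S : Set (Fin n → ℝ)} (hS : IsSimplex S) :
    ∃ z ∈ interior S, vol S * vol (pol (tr z '' S)) ≤ cn n := by
  obtain ⟨A, b, hA, rfl⟩ := hS.exists_aff
  have hu : IsUnit A.det := isUnit_iff_ne_zero.2 hA
  have hn1 : (0 : ℝ) < n + 1 := by positivity
  set g : Fin n → ℝ := fun _ => 1 / (n + 1) with hg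
  refine ⟨aff A b g, ?_, ?_⟩
  · have h1 : IsOpen {u : Fin n → ℝ | (∀ i, 0 < u i) ∧ ∑ i, u i < 1} := by
      refine IsOpen.inter ?_ (isOpen_lt (f := fun u : Fin n → ℝ => ∑ i, u i) (by fun_prop)
        continuous_const)
      have : {u : Fin n → ℝ | ∀ i, 0 < u i} = ⋂ i, {u | 0 < u i} := by ext; simp
      change IsOpen {u : Fin n → ℝ | ∀ i, 0 < u i}
      rw [this]
      exact isOpen_iInter_of_finite fun i => isOpen_lt continuous_const (by fun_prop)
    have h2 := h1.preimage (f := fun x : Fin n → ℝ => A⁻¹ *ᵥ (x - b)) (by fun_prop)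
    refine mem_interior.2 ⟨_, fun x hx => ⟨_, ⟨fun i => (hx.1 i).le, hx.2.le⟩, ?_⟩, h2, ?_⟩
    · simp [aff, mul_nonsing_inv _ hu]
    · simp only [mem_preimage, aff, add_sub_cancel_right, mulVec_mulVec, nonsing_inv_mul _ hu,
        one_mulVec, mem_setOf_eq, hg]
      refine ⟨fun _ => by positivity, ?_⟩
      simp only [Finset.sum_const, Finset.card_univ, Fintype.card_fin, nsmul_eq_mul]
      rw [mul_one_div, div_lt_one hn1]
      linarith
  · set P := pol (tr (aff A b g) '' (aff A b '' stdS n))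
    set M : Matrix (Fin n) (Fin n) ℝ :=
      (-(1 / ((n : ℝ) + 1))) • ((1 + vecMulVec (fun _ => (-1 : ℝ)) g) * Aᵀ) with hM
    have hdet : |M.det| = |A.det| / ((n : ℝ) + 1) ^ (n + 1) := by
      have e : 1 + g ⬝ᵥ (fun _ => (-1 : ℝ)) = 1 / ((n : ℝ) + 1) := by
        simp [hg, dotProduct]
        field_simp
        ring
      rw [hM, det_smul, det_mul, det_rk, det_transpose, e, Fintype.card_fin, abs_mul, abs_mul,
        abs_pow, abs_neg, abs_of_pos (by positivity), pow_succ, div_pow, one_pow]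
      field_simp
    have hA' : 0 < |A.det| := abs_pos.2 hA
    have hsub : aff M g '' P ⊆ stdS n := by
      rintro _ ⟨v, hv, rfl⟩
      set w := Aᵀ *ᵥ v with hw
      have h1 : ∀ u ∈ stdS n, w ⬝ᵥ u - w ⬝ᵥ g ≤ 1 := by
        intro u hu'
        have := hv _ ⟨_, ⟨u, hu', rfl⟩, rfl⟩
        rw [tr, aff, aff, add_sub_add_right_eq_sub, ← mulVec_sub, dotProduct_mulVec,
          ← mulVec_transpose, dotProduct_sub] at this
        exact this
      have h2 : ∀ i, aff M g v i = (1 - w i + w ⬝ᵥ g) / (n + 1) := by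
        intro i
        rw [aff, hM, smul_mulVec, ← mulVec_mulVec, ← hw, add_mulVec, one_mulVec, vecMulVec_mulVec,
          dotProduct_comm g]
        simp [hg]
        field_simp
        ring
      have h3 : w ⬝ᵥ g = (∑ i, w i) / (n + 1) := by
        simp [hg, dotProduct, Finset.sum_div, div_eq_mul_inv, Finset.sum_mul]
      refine ⟨fun i => ?_, ?_⟩
      · rw [h2]
        have := h1 (Pi.single i 1) ⟨fun j => by
          rw [Pi.single_apply]; split_ifs <;> norm_num, by simp⟩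
        rw [dotProduct_single, mul_one] at this
        exact div_nonneg (by linarith) hn1.le
      · simp only [h2]
        have := h1 0 ⟨fun j => le_rfl, by simp⟩
        rw [dotProduct_zero] at this
        rw [← Finset.sum_div, div_le_one hn1, Finset.sum_add_distrib, Finset.sum_sub_distrib]
        simp only [Finset.sum_const, Finset.card_univ, Fintype.card_fin, nsmul_eq_mul]
        have h4 : ∑ i, w i = (n + 1) * (w ⬝ᵥ g) := by rw [h3]; field_simp
        rw [h4]
        linarith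
    have h5 := ENNReal.toReal_mono (isCompact_stdS.measure_lt_top (μ := volume)).ne
      (measure_mono hsub)
    rw [volume_aff_image (abs_pos.1 (by rw [hdet]; positivity)) _ (isClosed_pol _).measurableSet,
      volume_stdS, hdet] at h5
    rw [vol, volume_aff_image hA _ measurableSet_stdS, volume_stdS, cn, vol]
    have hf : (0 : ℝ) < n.factorial := by positivity
    calc |A.det| * (1 / (n.factorial : ℝ)) * (volume P).toReal
        = (|A.det| / ((n : ℝ) + 1) ^ (n + 1) * (volume P).toReal) *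
          (((n : ℝ) + 1) ^ (n + 1) / n.factorial) := by field_simp
      _ ≤ (1 / (n.factorial : ℝ)) * (((n : ℝ) + 1) ^ (n + 1) / n.factorial) := by gcongr
      _ = _ := by field_simp

theorem ratio_std (n : ℕ) : (covMatrix (stdS n)).det / (volume (stdS n)).toReal ^ 2 = rn n := by
  have e : Bmat n = (((n : ℝ) + 1) * (n + 2)) •
      (1 + vecMulVec (fun _ : Fin n => (1 : ℝ)) (fun _ => 1)) := by
    ext i j
    rw [Matrix.smul_apply, Matrix.add_apply, Matrix.one_apply, vecMulVec_apply, smul_eq_mul, Bmat]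
    split_ifs <;> ring
  have h0 : (Bmat n).det = ((n : ℝ) + 1) * (((n : ℝ) + 1) * (n + 2)) ^ n := by
    rw [e, det_smul, det_rk]
    simp [dotProduct]
    ring
  have h1 := det_B_mul_det_cov (n := n)
  rw [h0] at h1
  have hp : (0 : ℝ) < ((n : ℝ) + 1) * (((n : ℝ) + 1) * (n + 2)) ^ n := by positivity
  rw [eq_inv_of_mul_eq_one_right h1, volume_stdS, rn]
  have : (n.factorial : ℝ) ≠ 0 := by positivity
  field_simp

theorem slice_of (hn : 1 ≤ n)
    (slice : ∀ K S : Set (Fin n → ℝ), IsConvexBody K → IsSimplex S →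
      isoConst K ≤ isoConst S ∧ (isoConst K = isoConst S ↔ IsSimplex K)) : Slice n := by
  intro K hK
  have hS : IsSimplex (stdS n) := ⟨_, affineIndependent_stdV, stdS_eq_convexHull⟩
  obtain ⟨h1, h2⟩ := slice K _ hK hS
  have hV := vol_pos hK
  have hn0 : (0 : ℝ) < n := by exact_mod_cast hn
  have h0 : 0 ≤ (covMatrix K).det / (volume K).toReal ^ 2 :=
    div_nonneg (covMatrix_posSemidef hK.2.1).det_nonneg (sq_nonneg _)
  rw [isoConst, isoConst, ratio_std] at h1 h2
  refine ⟨?_, fun he => h2.1 ?_⟩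
  · rw [Real.rpow_le_rpow_iff h0 (rn_pos n).le (by positivity)] at h1
    exact (div_le_iff₀ (pow_pos hV 2)).1 h1
  · have := mul_div_cancel_right₀ (rn n) (pow_pos hV 2).ne'
    rw [he]
    exact congrArg (fun x : ℝ => x ^ (1 / (2 * (n : ℝ)))) this

/-- The general Mahler inequality with its equality case, for the polar at the origin. -/
theorem core (hn : 1 ≤ n)
    (slice : ∀ K S : Set (Fin n → ℝ), IsConvexBody K → IsSimplex S →
      isoConst K ≤ isoConst S ∧ (isoConst K = isoConst S ↔ IsSimplex K))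
    (K : Set (Fin n → ℝ)) (hK : IsConvexBody K) (h0 : (0 : Fin n → ℝ) ∈ interior K) :
    ((n : ℝ) + 1) ^ (n + 1) / (n.factorial : ℝ) ^ 2 ≤
        (volume K).toReal * (volume {y : Fin n → ℝ | ∀ x ∈ K, y ⬝ᵥ x ≤ 1}).toReal ∧
      ((volume K).toReal * (volume {y : Fin n → ℝ | ∀ x ∈ K, y ⬝ᵥ x ≤ 1}).toReal =
        ((n : ℝ) + 1) ^ (n + 1) / (n.factorial : ℝ) ^ 2 → IsSimplex K) :=
  ⟨(dp_of_body hK h0).ge hn (slice_of hn slice), (dp_of_body hK h0).simplex hn (slice_of hn slice)⟩

end Vale.Agent.N248
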