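import Mathlib

/-! The volume product of a convex body. -/

open MeasureTheory

namespace Vale.Agent.N248

/-- The polar body of `K - z`. -/
def polarAt {n : ℕ} (K : Set (EuclideanSpace ℝ (Fin n))) (z : EuclideanSpace ℝ (Fin n)) :
    Set (EuclideanSpace ℝ (Fin n)) :=
  {y | ∀ x ∈ K, inner ℝ y (x - z) ≤ (1 : ℝ)}

/-- The volume product `P(K)`: the infimum over interior points `z` of `|K| |(K - z)°|`. -/
noncomputable def volumeProduct {n : ℕ} (K : Set (EuclideanSpace ℝ (Fin n))) : ENNReal :=
  ⨅ z ∈ interior K, volume K * volume (polarAt K z)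

end Vale.Agent.N248
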