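import Vale.Agent.N248.CoreC
import Vale.Agent.N248.Defs

/-! Transfer of the general Mahler inequality to Euclidean space. -/

set_option linter.all false

open MeasureTheory Set Matrix Filter Topology WithLp

namespace Vale.Agent.N248

open Vale.Agent.P254

variable {n : ℕ} {K : Set (EuclideanSpace ℝ (Fin n))}

/-- The coordinates of a set. -/
def co (K : Set (EuclideanSpace ℝ (Fin n))) : Set (Fin n → ℝ) := toLp 2 ⁻¹' K

/-- The coordinate map. -/
noncomputable def eqv (n : ℕ) : (Fin n → ℝ) ≃L[ℝ] EuclideanSpace ℝ (Fin n) :=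
  (EuclideanSpace.equiv (Fin n) ℝ).symm

theorem co_eq (K : Set (EuclideanSpace ℝ (Fin n))) : co K = (eqv n).toHomeomorph ⁻¹' K := rfl

theorem int_co (K : Set (EuclideanSpace ℝ (Fin n))) : interior (co K) = co (interior K) := by
  rw [co_eq, co_eq, Homeomorph.preimage_interior]

theorem volume_co (hK : MeasurableSet K) : volume (co K) = volume K :=
  (PiLp.volume_preserving_toLp (Fin n)).measure_preimage hK.nullMeasurableSet

theorem body_co (h1 : IsCompact K) (h2 : Convex ℝ K) (h3 : (interior K).Nonempty) :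
    IsConvexBody (co K) := by
  refine ⟨h2.linear_preimage (eqv n).toLinearEquiv.toLinearMap, ?_, ?_⟩
  · rw [co_eq]
    exact (Homeomorph.isCompact_preimage _).2 h1
  · obtain ⟨z, hz⟩ := h3
    exact ⟨ofLp z, by rw [int_co]; exact hz⟩

theorem co_polarAt (K : Set (EuclideanSpace ℝ (Fin n))) (z : EuclideanSpace ℝ (Fin n)) :
    co (polarAt K z) = pol (tr (ofLp z) '' co K) := by
  have e : ∀ (y : Fin n → ℝ) (x : EuclideanSpace ℝ (Fin n)),
      inner ℝ (toLp 2 y) (x - z) = y ⬝ᵥ tr (ofLp z) (ofLp x) := by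
    intro y x
    rw [EuclideanSpace.inner_eq_star_dotProduct, dotProduct_comm]
    rfl
  ext y
  constructor
  · rintro hy _ ⟨u, hu, rfl⟩
    exact (e y (toLp 2 u)).symm.le.trans (hy _ hu)
  · intro hy x hx
    exact (e y x).le.trans (hy _ ⟨ofLp x, hx, rfl⟩)

theorem isClosed_polarAt (K : Set (EuclideanSpace ℝ (Fin n))) (z : EuclideanSpace ℝ (Fin n)) :
    IsClosed (polarAt K z) := by
  have : polarAt K z = ⋂ x ∈ K, {y : EuclideanSpace ℝ (Fin n) | inner ℝ y (x - z) ≤ (1 : ℝ)} := by
    ext v; simp [polarAt]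
  rw [this]
  exact isClosed_biInter fun u _ => isClosed_le (by fun_prop) continuous_const

theorem prod_eq (h1 : IsCompact K) (h2 : Convex ℝ K) (h3 : (interior K).Nonempty)
    {z : EuclideanSpace ℝ (Fin n)} (hz : z ∈ interior K) :
    volume K * volume (polarAt K z) =
      ENNReal.ofReal (vol (co K) * vol (pol (tr (ofLp z) '' co K))) := by
  have hB := body_co h1 h2 h3
  have h := dp_tr hB (z := ofLp z) (by rw [int_co]; exact hz)
  rw [vol, vol, ← ENNReal.toReal_mul, ENNReal.ofReal_toReal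
    (ENNReal.mul_ne_top hB.2.1.measure_lt_top.ne h.cT.measure_lt_top.ne), ← co_polarAt,
    volume_co h1.measurableSet, volume_co (isClosed_polarAt K z).measurableSet]

theorem simplex_co : IsSimplex (co K) ↔ ∃ v : Fin (n + 1) → EuclideanSpace ℝ (Fin n),
    AffineIndependent ℝ v ∧ K = convexHull ℝ (range v) := by
  constructor
  · rintro ⟨v, hv, e⟩
    refine ⟨(eqv n).toLinearEquiv.toAffineEquiv ∘ v, hv.map' (eqv n).toLinearEquiv.toAffineEquiv.toAffineMap
      (eqv n).injective, ?_⟩
    have h1 : K = (eqv n).toLinearEquiv.toLinearMap '' co K :=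
      (image_preimage_eq K (eqv n).surjective).symm
    rw [h1, e, LinearMap.image_convexHull, range_comp]
    rfl
  · rintro ⟨v, hv, e⟩
    refine ⟨(eqv n).symm.toLinearEquiv.toAffineEquiv ∘ v,
      hv.map' (eqv n).symm.toLinearEquiv.toAffineEquiv.toAffineMap (eqv n).symm.injective, ?_⟩
    have h1 : co K = (eqv n).symm.toLinearEquiv.toLinearMap '' K := by
      ext x
      exact ⟨fun hx => ⟨toLp 2 x, hx, rfl⟩, by rintro ⟨y, hy, rfl⟩; exact hy⟩
    rw [h1, e, LinearMap.image_convexHull, range_comp]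
    rfl

/-- The general Mahler conjecture from the strong slicing bound. -/
theorem q2 (hn : 0 < n) (hs : Slice n) (h1 : IsCompact K) (h2 : Convex ℝ K)
    (h3 : (interior K).Nonempty) :
    ENNReal.ofReal (cn n) ≤ volumeProduct K ∧
      (volumeProduct K = ENNReal.ofReal (cn n) ↔ ∃ v : Fin (n + 1) → EuclideanSpace ℝ (Fin n),
        AffineIndependent ℝ v ∧ K = convexHull ℝ (range v)) ∧
      volumeProduct K < ⊤ ∧
      ∃ z ∈ interior K, volumeProduct K = volume K * volume (polarAt K z) := by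
  have hB := body_co h1 h2 h3
  have hV := vol_pos hB
  have hge : ENNReal.ofReal (cn n) ≤ volumeProduct K := by
    refine le_iInf₂ fun z hz => ?_
    rw [prod_eq h1 h2 h3 hz]
    exact ENNReal.ofReal_le_ofReal (ge_at hn hs hB (by rw [int_co]; exact hz))
  obtain ⟨z, hz, hm⟩ := exists_santalo hB
  have hz' : toLp 2 z ∈ interior K := by rw [int_co] at hz; exact hz
  have hat : volumeProduct K = volume K * volume (polarAt K (toLp 2 z)) := by
    refine le_antisymm (iInf₂_le _ hz') (le_iInf₂ fun w hw => ?_)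
    rw [prod_eq h1 h2 h3 hz', prod_eq h1 h2 h3 hw]
    exact ENNReal.ofReal_le_ofReal
      (mul_le_mul_of_nonneg_left (hm _ (by rw [int_co]; exact hw)) hV.le)
  refine ⟨hge, ⟨fun he => simplex_co.1 (simplex_at hn hs hB hz ?_), fun hS => ?_⟩, ?_, _, hz', hat⟩
  · rw [hat, prod_eq h1 h2 h3 hz'] at he
    exact (ENNReal.ofReal_eq_ofReal_iff ((cn_pos n).le.trans (ge_at hn hs hB hz)) (cn_pos n).le).1 he
  · obtain ⟨w, hw, hle⟩ := simplex_val (simplex_co.2 hS)
    have hw' : toLp 2 w ∈ interior K := by rw [int_co] at hw; exact hw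
    refine le_antisymm ((iInf₂_le _ hw').trans ?_) hge
    rw [prod_eq h1 h2 h3 hw']
    exact ENNReal.ofReal_le_ofReal hle
  · rw [hat, prod_eq h1 h2 h3 hz']
    exact ENNReal.ofReal_lt_top

end Vale.Agent.N248
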